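import Vale.Agent.P089GU.Unit

/-! P089: the index of the cycle of a point is `[1]`, in the form of the definitions. -/

set_option autoImplicit false
set_option linter.all false

namespace Vale.Agent.P089GU

open scoped InnerProductSpace ZeroAtInfty
open Matrix Vale.Agent.P089 Vale.Agent.P089.Asm Vale.Agent.P086 Vale.Agent.P089Z

/-- the algebra of the comparison -/
theorem indexEq_of {B : Type} [Ring B] {S : B → Prop} (h0 : S 0) (h1 : S 1) {V W : B} (hV : S V)
    (hW : S W) : IndexEq S !![V * W, 0; 0, 0] !![W * V] := by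
  refine ⟨0, fromBlocks (fromBlocks !![0, 0; 0, 1] !![V; 0] 0 0) 0 0 1,
    fromBlocks (fromBlocks !![0, 0; 0, 1] 0 !![W, 0] 0) 0 0 1, ?_, ?_, ?_⟩
  · rintro ((j | j) | j) ((k | k) | k)
    · fin_cases j <;> fin_cases k
      · exact ⟨h0, h0⟩
      · exact ⟨h0, h0⟩
      · exact ⟨h0, h0⟩
      · exact ⟨h1, h1⟩
    · fin_cases j <;> fin_cases k
      · exact ⟨hV, h0⟩
      · exact ⟨h0, h0⟩
    · exact k.elim0
    · fin_cases j
      fin_cases k
      · exact ⟨h0, hW⟩
      · exact ⟨h0, h0⟩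
    · exact ⟨h0, h0⟩
    · exact k.elim0
    · exact j.elim0
    · exact j.elim0
    · exact j.elim0
  · simp only [fromBlocks_multiply, Matrix.mul_zero, Matrix.zero_mul, add_zero, zero_add, mul_one,
      addDiag, diag01]
    congr 2
    ext1 j k
    fin_cases j <;> fin_cases k <;> simp
  · simp only [fromBlocks_multiply, Matrix.mul_zero, Matrix.zero_mul, add_zero, zero_add, mul_one,
      diag01]
    congr 2
    · ext1 j k
      fin_cases j <;> fin_cases k <;> simp
    · ext1 j k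
      fin_cases j <;> fin_cases k <;> simp
    · ext1 j k
      fin_cases j
      fin_cases k <;> simp
    · ext1 j k
      fin_cases j
      fin_cases k
      simp

variable {G Y : Type} [Group G] [TopologicalSpace Y] [MulAction G Y] [ContinuousConstSMul G Y]

theorem separable_L2 (I : Type) [Countable I] : TopologicalSpace.SeparableSpace (L2 I) := by
  classical
  let d : HilbertBasis I ℂ (L2 I) := HilbertBasis.ofRepr (LinearIsometryEquiv.refl ℂ _)
  have h1 : TopologicalSpace.IsSeparable (Submodule.span ℂ (Set.range d) : Set (L2 I)) :=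
    (Set.countable_range d).isSeparable.span
  have h2 := h1.closure
  rw [← Submodule.topologicalClosure_coe, d.dense_span, Submodule.top_coe] at h2
  exact TopologicalSpace.isSeparable_univ_iff.1 h2

section

variable [ProperlyDiscontinuousSMul G Y] [TopologicalSpace G] [DiscreteTopology G]

/-- The index matrix of the cycle of a point, on `ℓ²(G × ℕ)`. -/
theorem pt_index_L2 (y : Y) {w : C₀(Y, ℂ)} (hw : IsCutoff G Y w) {ι : Type}
    (d : HilbertBasis ι ℂ (L2 G)) (u : ι ↪ ℕ) :
    ∃ V W : L2 (G × ℕ) →L[ℂ] L2 (G × ℕ), RoeB V ∧ RoeB W ∧ W * V = Ei 0 0 1 ∧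
      ((ptCycle G y).index ((ptCycle G y).proj w)).map (rep (cj d u)) = !![V * W, 0; 0, 0] := by
  obtain ⟨V, W, hV, hW, h1, h2⟩ := pt_mvn (G := G) y hw d u
  refine ⟨V, W, hV, hW, h2, ?_⟩
  rw [pt_index y (Cycle.proj_idem _ hw (finite_shift hw.1)), h1]
  ext1 j k
  fin_cases j <;> fin_cases k
  · rfl
  · exact map_zero (rep (cj d u))
  · exact map_zero (rep (cj d u))
  · exact map_zero (rep (cj d u))

variable {K E : Type} [NormedAddCommGroup K] [InnerProductSpace ℂ K] [CompleteSpace K]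
  [NormedAddCommGroup E] [InnerProductSpace ℂ E] [CompleteSpace E]

/-- The index of the cycle of a point is the class of the unit, with explicit operators. -/
theorem pt_index_ops (y : Y) {w : C₀(Y, ℂ)} (hw : IsCutoff G Y w) {ι : Type}
    (d : HilbertBasis ι ℂ (L2 G)) (u : ι ↪ ℕ) (b : HilbertBasis G ℂ K)
    (c : HilbertBasis (G × ℕ) ℂ E) {p : MonoidAlgebra (L2 G →L[ℂ] L2 G) G}
    (hp : (ptCycle G y).IsProj w p) {A : Matrix (Fin 2) (Fin 2) (E →L[ℂ] E)}
    (hA : ∀ j k, IsSum c d u ((ptCycle G y).index p j k) (A j k)) {q : E →L[ℂ] E}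
    (hq : BC.IsCorner b c 1 q) :
    ∃ V W : E →L[ℂ] E, BC.IsRoe c V ∧ BC.IsRoe c W ∧ A = !![V * W, 0; 0, 0] ∧ q = W * V := by
  obtain rfl := hp.eq (finite_shift hw.1)
  obtain ⟨V, W, hV, hW, h1, h2⟩ := pt_index_L2 (G := G) y hw d u
  refine ⟨(BC.frE c).symm V, (BC.frE c).symm W, isRoe_of_frE ?_, isRoe_of_frE ?_, ?_, ?_⟩
  · rw [StarAlgEquiv.apply_symm_apply]
    exact hV.isRoe
  · rw [StarAlgEquiv.apply_symm_apply]
    exact hW.isRoe
  · ext1 j k
    apply EquivLike.injective (BC.frE c)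
    have h3 := congrFun (congrFun h2 j) k
    rw [Matrix.map_apply, ← isSum_iff.1 (hA j k)] at h3
    rw [h3]
    fin_cases j <;> fin_cases k
    · change V * W = BC.frE c ((BC.frE c).symm V * (BC.frE c).symm W)
      rw [map_mul, StarAlgEquiv.apply_symm_apply, StarAlgEquiv.apply_symm_apply]
    · exact (map_zero (BC.frE c)).symm
    · exact (map_zero (BC.frE c)).symm
    · exact (map_zero (BC.frE c)).symm
  · apply EquivLike.injective (BC.frE c)
    have h3 : IsCorner (BC.frE b 1) (BC.frE c q) := by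
      refine ⟨fun g h' => ?_, fun i l hil => ?_⟩
      · rw [BC.ent_frE, BC.ent_frE]
        exact hq.1 g h'
      · rw [BC.ent_frE]
        exact hq.2 i l hil
    rw [IsCorner.eq_Ei h3, map_mul, StarAlgEquiv.apply_symm_apply, StarAlgEquiv.apply_symm_apply,
      h1, map_one]

/-- The index of the cycle of a point is the class of the unit. -/
theorem pt_indexEq (y : Y) {w : C₀(Y, ℂ)} (hw : IsCutoff G Y w) {ι : Type}
    (d : HilbertBasis ι ℂ (L2 G)) (u : ι ↪ ℕ) (b : HilbertBasis G ℂ K)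
    (c : HilbertBasis (G × ℕ) ℂ E) {p : MonoidAlgebra (L2 G →L[ℂ] L2 G) G}
    (hp : (ptCycle G y).IsProj w p) {A : Matrix (Fin 2) (Fin 2) (E →L[ℂ] E)}
    (hA : ∀ j k, IsSum c d u ((ptCycle G y).index p j k) (A j k))
    {q : Matrix (Fin 1) (Fin 1) (E →L[ℂ] E)}
    (hq : ∀ j k, BC.IsCorner b c ((1 : Matrix (Fin 1) (Fin 1) (K →L[ℂ] K)) j k) (q j k)) :
    IndexEq (BC.IsU c) A q := by
  obtain ⟨V, W, hV, hW, h1, h2⟩ := pt_index_ops y hw d u b c hp hA (q := q 0 0) (hq 0 0)
  have h3 : q = !![W * V] := by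
    ext1 j k
    fin_cases j
    fin_cases k
    exact h2
  rw [h1, h3]
  exact indexEq_of (isU_of_isRoe (isRoe_zero c)) (isU_one c) (isU_of_isRoe hV) (isU_of_isRoe hW)

end

/-- On every nonempty proper space there is a cycle whose index is the class of the unit. -/
theorem exists_unit [ProperlyDiscontinuousSMul G Y] (y : Y) : ∃ Z : Cycle G Y (L2 G),
    ∀ (w : C₀(Y, ℂ)), IsCutoff G Y w → ∀ (ι : Type) (d : HilbertBasis ι ℂ (L2 G)) (u : ι ↪ ℕ),
      ∃ V W : L2 (G × ℕ) →L[ℂ] L2 (G × ℕ), RoeB V ∧ RoeB W ∧ W * V = Ei 0 0 1 ∧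
        (Z.index (Z.proj w)).map (rep (cj d u)) = !![V * W, 0; 0, 0] := by
  let _ : TopologicalSpace G := ⊥
  have : DiscreteTopology G := ⟨rfl⟩
  exact ⟨ptCycle G y, fun w hw ι d u => pt_index_L2 y hw d u⟩

end Vale.Agent.P089GU
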