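import Vale.Agent.P089Z.Main

/-! P089: the cycle of a point of a proper space has index `[1]`. -/

set_option autoImplicit false
set_option linter.all false

namespace Vale.Agent.P089GU

open scoped InnerProductSpace ZeroAtInfty
open Matrix Vale.Agent.P089 Vale.Agent.P089.Asm Vale.Agent.P086 Vale.Agent.P089Z
open InnerProductSpace (rankOne)

section Push

variable {G X Y H : Type} [Group G] [TopologicalSpace X] [MulAction G X] [ContinuousConstSMul G X]
  [TopologicalSpace Y] [MulAction G Y] [ContinuousConstSMul G Y]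
  [NormedAddCommGroup H] [InnerProductSpace ℂ H] [CompleteSpace H]

/-- The pull back of functions along a proper map. -/
noncomputable def pull (f : CocompactMap X Y) : C₀(Y, ℂ) →⋆ₙₐ[ℂ] C₀(X, ℂ) :=
  ⟨ZeroAtInftyContinuousMap.compNonUnitalAlgHom f, fun _ => rfl⟩

theorem pull_apply (f : CocompactMap X Y) (a : C₀(Y, ℂ)) (x : X) : pull f a x = a (f x) := rfl

theorem pull_shift (f : CocompactMap X Y) (hf : ∀ (g : G) x, f (g • x) = g • f x) (g : G)
    (a : C₀(Y, ℂ)) : pull f (shift g a) = shift g (pull f a) := by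
  ext x
  rw [pull_apply, shift_apply, shift_apply, pull_apply, hf]

/-- The push forward of a cycle along an equivariant proper map. -/
noncomputable def push (Z : Cycle G X H) (f : CocompactMap X Y)
    (hf : ∀ (g : G) x, f (g • x) = g • f x) : Cycle G Y H where
  γ := Z.γ
  ρ := Z.ρ.comp (pull f)
  U := Z.U
  F := Z.F
  γ_star := Z.γ_star
  γ_sq := Z.γ_sq
  ρ_even a := Z.ρ_even (pull f a)
  U_even := Z.U_even
  F_odd := Z.F_odd
  covariant g a := (Z.covariant g (pull f a)).trans (congrArg Z.ρ (pull_shift f hf g a).symm)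
  compact_sq a := Z.compact_sq (pull f a)
  compact_star a := Z.compact_star (pull f a)
  compact_comm a := Z.compact_comm (pull f a)
  compact_inv g a := Z.compact_inv g (pull f a)

end Push

section Alg

variable {G V W : Type} [Group G] [NormedAddCommGroup V] [InnerProductSpace ℂ V]
  [NormedAddCommGroup W] [InnerProductSpace ℂ W]

theorem r_mul (x y z t : V) :
    (rankOne ℂ x y : V →L[ℂ] V) * rankOne ℂ z t = ⟪y, z⟫_ℂ • rankOne ℂ x t :=
  InnerProductSpace.rankOne_comp_rankOne x y z t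

theorem r_cp (x y : V) : Cp (rankOne ℂ x y : V →L[ℂ] V) :=
  (isCompactOperator_of_locallyCompactSpace_dom (innerSL ℂ y)).clm_comp
    (ContinuousLinearMap.toSpanSingleton ℂ x)

theorem r_cp' (z : ℂ) (x y : V) : Cp (z • rankOne ℂ x y : V →L[ℂ] V) :=
  IsCompactOperator.smul (f := (rankOne ℂ x y : V →L[ℂ] V)) (r_cp x y) z

theorem inner_one {I : Type} [i : DecidableEq I] (j : I) (f : L2 I) :
    ⟪(lp.single 2 j (1 : ℂ) : L2 I), f⟫_ℂ = (f : I → ℂ) j := by
  rw [lp.inner_single_left]
  simp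

/-- the column -/
noncomputable def col (A : Finset G) (t : G → ℂ) (x : G → V) (e : V) :
    MonoidAlgebra (V →L[ℂ] V) G :=
  ∑ a ∈ A, MonoidAlgebra.single a (t a • rankOne ℂ (x a) e)

/-- the row -/
noncomputable def row (A : Finset G) (t : G → ℂ) (x : G → V) (e : V) :
    MonoidAlgebra (V →L[ℂ] V) G :=
  ∑ a ∈ A, MonoidAlgebra.single a⁻¹ (t a • rankOne ℂ e (x a))

/-- the rank one projection -/
noncomputable def prj (A : Finset G) (t : G → ℂ) (x : G → V) : MonoidAlgebra (V →L[ℂ] V) G :=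
  ∑ a ∈ A, ∑ b ∈ A, MonoidAlgebra.single (a * b⁻¹) ((t a * t b) • rankOne ℂ (x a) (x b))

theorem col_row (A : Finset G) (t : G → ℂ) (x : G → V) {e : V} (he : ⟪e, e⟫_ℂ = 1) :
    col A t x e * row A t x e = prj A t x := by
  rw [col, row, prj, Finset.sum_mul_sum]
  refine Finset.sum_congr rfl fun a _ => Finset.sum_congr rfl fun b _ => ?_
  rw [MonoidAlgebra.single_mul_single, smul_mul_smul_comm, r_mul, he, one_smul]

theorem row_col [DecidableEq G] (A : Finset G) (t : G → ℂ) (x : G → V) (e : V)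
    (hx : ∀ a b, ⟪x a, x b⟫_ℂ = if a = b then 1 else 0) (ht : ∑ a ∈ A, t a ^ 2 = 1) :
    row A t x e * col A t x e = MonoidAlgebra.single 1 (rankOne ℂ e e) := by
  rw [col, row, Finset.sum_mul_sum]
  have h : ∀ a ∈ A, ∑ b ∈ A, (MonoidAlgebra.single a⁻¹ (t a • rankOne ℂ e (x a)) *
      MonoidAlgebra.single b (t b • rankOne ℂ (x b) e) : MonoidAlgebra (V →L[ℂ] V) G) =
      MonoidAlgebra.single 1 (t a ^ 2 • rankOne ℂ e e) := by
    intro a ha
    rw [Finset.sum_eq_single a]
    · rw [MonoidAlgebra.single_mul_single, smul_mul_smul_comm, r_mul, hx, if_pos rfl, one_smul,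
        inv_mul_cancel, sq]
    · intro b _ hb
      rw [MonoidAlgebra.single_mul_single, smul_mul_smul_comm, r_mul, hx, if_neg (Ne.symm hb),
        zero_smul, smul_zero, MonoidAlgebra.single_zero]
    · intro h
      exact (h ha).elim
  rw [Finset.sum_congr rfl h]
  ext1
  ext1 s
  rw [MonoidAlgebra.coeff_sum, Finsupp.finsetSum_apply]
  simp only [MonoidAlgebra.coeff_single, Finsupp.single_apply]
  split_ifs
  · rw [← Finset.sum_smul, ht, one_smul]
  · exact Finset.sum_const_zero

theorem ideal_sum {ι : Type} (A : Finset ι) (k : ι → G) (T : ι → V →L[ℂ] V) (h : ∀ a, Cp (T a)) :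
    Ideal (∑ a ∈ A, MonoidAlgebra.single (k a) (T a) : MonoidAlgebra (V →L[ℂ] V) G) := by
  classical
  refine ⟨fun s => ?_⟩
  rw [MonoidAlgebra.coeff_sum, Finsupp.finsetSum_apply]
  refine Cp.sum _ _ fun a _ => ?_
  rw [MonoidAlgebra.coeff_single, Finsupp.single_apply]
  split_ifs
  · exact h a
  · exact Cp.zero

theorem col_ideal (A : Finset G) (t : G → ℂ) (x : G → V) (e : V) : Ideal (col A t x e) :=
  ideal_sum _ _ _ fun a => r_cp' _ _ _

theorem row_ideal (A : Finset G) (t : G → ℂ) (x : G → V) (e : V) : Ideal (row A t x e) :=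
  ideal_sum _ _ _ fun a => r_cp' _ _ _

theorem coeff_prj [DecidableEq G] (A : Finset G) (t : G → ℂ) (x : G → V) (s : G) :
    (prj A t x).coeff s = ∑ a ∈ A, ∑ b ∈ A,
      if a * b⁻¹ = s then (t a * t b) • rankOne ℂ (x a) (x b) else 0 := by
  rw [prj, MonoidAlgebra.coeff_sum, Finsupp.finsetSum_apply]
  refine Finset.sum_congr rfl fun a _ => ?_
  rw [MonoidAlgebra.coeff_sum, Finsupp.finsetSum_apply]
  refine Finset.sum_congr rfl fun b _ => ?_
  rw [MonoidAlgebra.coeff_single, Finsupp.single_apply]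

theorem map_coeff_prj (A : Finset G) (t : G → ℂ) (x : G → V) (x' : G → W)
    (φ : (V →L[ℂ] V) →ₙ+* (W →L[ℂ] W))
    (h : ∀ (z : ℂ) a b, φ (z • rankOne ℂ (x a) (x b)) = z • rankOne ℂ (x' a) (x' b)) (s : G) :
    φ ((prj A t x).coeff s) = (prj A t x').coeff s := by
  classical
  rw [coeff_prj, coeff_prj, map_sum]
  refine Finset.sum_congr rfl fun a _ => ?_
  rw [map_sum]
  refine Finset.sum_congr rfl fun b _ => ?_
  split_ifs
  · exact h _ _ _
  · exact map_zero φ

end Alg

section Cj

variable {H ι : Type} [NormedAddCommGroup H] [InnerProductSpace ℂ H] [CompleteSpace H]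
  (d : HilbertBasis ι ℂ H) (u : ι ↪ ℕ)

/-- the isometry of `H` into `ℓ²(ℕ)` -/
noncomputable def emb (ξ : H) : L2 ℕ := pushL2 u u.injective (d.repr ξ)

theorem inner_emb_right (ξ : H) (ζ : L2 ℕ) : ⟪emb d u ξ, ζ⟫_ℂ =
    ⟪ξ, d.repr.symm (ContinuousLinearMap.adjoint (pushL2 u u.injective) ζ)⟫_ℂ := by
  rw [emb, ← ContinuousLinearMap.adjoint_inner_right, ← d.repr.inner_map_map,
    LinearIsometryEquiv.apply_symm_apply]

theorem inner_emb (ξ η : H) : ⟪emb d u ξ, emb d u η⟫_ℂ = ⟪ξ, η⟫_ℂ := by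
  have h : ContinuousLinearMap.adjoint (pushL2 u u.injective) (pushL2 u u.injective (d.repr η)) =
      d.repr η := congrArg (fun A : L2 ι →L[ℂ] L2 ι => A (d.repr η))
        (adjoint_pushL2_comp u.injective)
  rw [inner_emb_right, emb, h, LinearIsometryEquiv.symm_apply_apply]

theorem cj_rank (z : ℂ) (ξ η : H) :
    cj d u (z • rankOne ℂ ξ η) = z • rankOne ℂ (emb d u ξ) (emb d u η) := by
  ext1 ζ
  rw [cj_apply, BC.frE_apply, ContinuousLinearMap.smul_apply, ContinuousLinearMap.smul_apply,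
    InnerProductSpace.rankOne_apply, InnerProductSpace.rankOne_apply, inner_emb_right,
    map_smul, map_smul, map_smul, map_smul]
  rfl

end Cj

theorem pN_one : pN 1 = rankOne ℂ (lp.single 2 0 (1 : ℂ) : L2 ℕ) (lp.single 2 0 (1 : ℂ) : L2 ℕ) := by
  ext f i
  rw [InnerProductSpace.rankOne_apply, inner_one]
  change (proj {n : ℕ | n < 1} f : ℕ → ℂ) i = (f : ℕ → ℂ) 0 * (lp.single 2 0 (1 : ℂ) : L2 ℕ) i
  by_cases hi : i = 0
  · subst hi
    rw [proj_apply_mem (S := {n : ℕ | n < 1}) _ (by simp), lp.single_apply_self, mul_one]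
  · rw [proj_apply_not_mem (S := {n : ℕ | n < 1}) _ (fun k => hi (by simpa using k)),
      lp.single_apply_ne _ _ _ hi, mul_zero]

section Point

variable {G Y : Type} [Group G] [TopologicalSpace Y] [MulAction G Y] [ContinuousConstSMul G Y]
  [ProperlyDiscontinuousSMul G Y]

theorem finite_orbit (y : Y) {K : Set Y} (hK : IsCompact K) : {g : G | g • y ∈ K}.Finite :=
  (ProperlyDiscontinuousSMul.finite_disjoint_inter_image (Γ := G) (isCompact_singleton (x := y))
    hK).subset fun g hg => ⟨g • y, ⟨y, rfl, rfl⟩, hg⟩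

variable [TopologicalSpace G] [DiscreteTopology G]

variable (G) in
/-- the orbit map -/
def orb (y : Y) : CocompactMap G Y where
  toFun g := g • y
  continuous_toFun := continuous_of_discreteTopology
  cocompact_tendsto' := by
    rw [Filter.cocompact_eq_cofinite]
    refine Filter.hasBasis_cocompact.tendsto_right_iff.2 fun K hK => ?_
    refine (finite_orbit (G := G) y hK).subset fun g hg => ?_
    by_contra h
    exact hg h

variable (G) in
/-- the cycle of a point -/
noncomputable def ptCycle (y : Y) : Cycle G Y (L2 G) :=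
  push unitCycle (orb G y) fun g x => mul_smul g x y

theorem pt_proj [DecidableEq G] (y : Y) {w : C₀(Y, ℂ)} (hw : HasCompactSupport w) (A : Finset G)
    (hA : ∀ a, a ∉ A → w (a • y) = 0) : (ptCycle G y).proj w =
      prj A (fun a => w (a • y)) fun a => (lp.single 2 a (1 : ℂ) : L2 G) := by
  ext1
  ext1 s
  rw [Cycle.coeff_proj _ (finite_shift hw), coeff_prj]
  refine entx_ext fun j k => ?_
  have h1 : ent ((ptCycle G y).ρ (w * shift s w) * ((ptCycle G y).U s).1) j k =
      w (j • y) * w (s⁻¹ • j • y) * (lp.single 2 k (1 : ℂ) : L2 G) (s⁻¹ * j) := by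
    rw [entx_eq]
    rfl
  have h2 : ∀ a b : G, ent (if a * b⁻¹ = s then (w (a • y) * w (b • y)) •
      rankOne ℂ (lp.single 2 a (1 : ℂ) : L2 G) (lp.single 2 b (1 : ℂ) : L2 G) else 0) j k =
      if j = a then if k = b then if j * k⁻¹ = s then w (j • y) * w (k • y) else 0 else 0
        else 0 := by
    intro a b
    by_cases h : a * b⁻¹ = s
    · rw [if_pos h, ent_smul, entx_eq, InnerProductSpace.rankOne_apply, inner_one]
      change _ * ((lp.single 2 k (1 : ℂ) : L2 G) b * (lp.single 2 a (1 : ℂ) : L2 G) j) = _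
      rw [lp.single_apply, lp.single_apply, Pi.single_apply, Pi.single_apply]
      by_cases hj : j = a
      · by_cases hk : k = b
        · subst hj
          subst hk
          simp [h]
        · simp [hk, Ne.symm hk]
      · simp [hj]
    · rw [if_neg h, ent_zero]
      by_cases hj : j = a
      · by_cases hk : k = b
        · subst hj
          subst hk
          simp [h]
        · simp [hk]
      · simp [hj]
  have h3 : ∀ (B : Finset G) (T : G → L2 G →L[ℂ] L2 G),
      ent (∑ a ∈ B, T a) j k = ∑ a ∈ B, ent (T a) j k := fun B T => map_sum (entL j k) T B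
  rw [h1, h3]
  simp only [h3, h2]
  simp only [Finset.sum_ite_irrel, Finset.sum_const_zero, Finset.sum_ite_eq]
  rw [lp.single_apply, Pi.single_apply, ← mul_smul]
  by_cases hs : j * k⁻¹ = s
  · have h4 : s⁻¹ * j = k := by rw [← hs]; group
    rw [h4, if_pos rfl, mul_one, if_pos hs]
    by_cases hj : j ∈ A
    · by_cases hk : k ∈ A
      · rw [if_pos hj, if_pos hk]
      · rw [if_pos hj, if_neg hk, hA k hk, mul_zero]
    · rw [if_neg hj, hA j hj, zero_mul]
  · have h4 : ¬ s⁻¹ * j = k := fun h => hs (by rw [← h]; group)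
    rw [if_neg h4, if_neg hs, mul_zero]
    simp

theorem pt_index (y : Y) {p : MonoidAlgebra (L2 G →L[ℂ] L2 G) G} (hp : p * p = p) :
    (ptCycle G y).index p = !![p, 0; 0, 0] := by
  have h0 : (ptCycle G y).even p = p := by
    have h : ((2 : ℂ)⁻¹ • (1 + 1) : L2 G →L[ℂ] L2 G) = 1 := by
      rw [← two_smul ℂ, smul_smul]
      norm_num
    change p * MonoidAlgebra.single 1 ((2 : ℂ)⁻¹ • (1 + 1)) = p
    rw [h, ← MonoidAlgebra.one_def, mul_one]
  have h1 : (ptCycle G y).odd p = 0 := by
    change p * MonoidAlgebra.single 1 ((2 : ℂ)⁻¹ • (1 - 1)) = _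
    rw [sub_self, smul_zero, MonoidAlgebra.single_zero, mul_zero]
  rw [Cycle.index, h0, h1, indexMat]
  simp only [mul_zero, zero_mul, sub_zero, sq, hp, neg_zero]

/-- The cutoff projection of the cycle of a point is equivalent to the corner of the unit. -/
theorem pt_mvn (y : Y) {w : C₀(Y, ℂ)} (hw : IsCutoff G Y w) {ι : Type}
    (d : HilbertBasis ι ℂ (L2 G)) (u : ι ↪ ℕ) :
    ∃ V W : L2 (G × ℕ) →L[ℂ] L2 (G × ℕ), RoeB V ∧ RoeB W ∧
      V * W = rep (cj d u) ((ptCycle G y).proj w) ∧ W * V = Ei 0 0 1 := by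
  classical
  have hfin : {a : G | a • y ∈ tsupport w}.Finite := finite_orbit y hw.1
  have hA : ∀ a, a ∉ hfin.toFinset → w (a • y) = 0 := fun a ha =>
    image_eq_zero_of_notMem_tsupport fun h => ha (hfin.mem_toFinset.2 h)
  have ht : ∑ a ∈ hfin.toFinset, w (a • y) ^ 2 = 1 := by
    rw [← hw.2.2 y, ← finsum_comp_equiv (Equiv.inv G) (f := fun g : G => w (g⁻¹ • y) ^ 2)]
    simp only [Equiv.inv_apply, inv_inv]
    refine (finsum_eq_sum_of_support_subset _ fun a ha => ?_).symm
    by_contra h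
    refine ha ?_
    change w (a • y) ^ 2 = 0
    rw [hA a h]
    exact zero_pow two_ne_zero
  set e : L2 ℕ := lp.single 2 0 (1 : ℂ) with he
  set x : G → L2 ℕ := fun a => emb d u (lp.single 2 a (1 : ℂ) : L2 G) with hx
  have hee : ⟪e, e⟫_ℂ = 1 := by rw [he, inner_one, lp.single_apply_self]
  have hxx : ∀ a b, ⟪x a, x b⟫_ℂ = if a = b then 1 else 0 := fun a b => by
    rw [hx, inner_emb, inner_one, lp.single_apply, Pi.single_apply]
  refine ⟨rep (NonUnitalRingHom.id OpN) (col hfin.toFinset (fun a => w (a • y)) x e),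
    rep (NonUnitalRingHom.id OpN) (row hfin.toFinset (fun a => w (a • y)) x e),
    roeB_rep _ _ (col_ideal _ _ _ _).cp, roeB_rep _ _ (row_ideal _ _ _ _).cp, ?_, ?_⟩
  · rw [← map_mul, col_row _ _ _ hee, pt_proj y hw.1 _ hA]
    refine bl_ext fun g h => ?_
    rw [bl_rep, bl_rep]
    exact (map_coeff_prj _ _ _ x _ (fun z a b => cj_rank d u z _ _) _).symm
  · rw [← map_mul, row_col _ _ _ _ hxx ht]
    refine bl_ext fun g h => ?_
    rw [bl_rep, bl_Ei, MonoidAlgebra.coeff_single, Finsupp.single_apply, pN_one]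
    by_cases hg : g = h
    · rw [if_pos (by rw [hg, mul_inv_cancel]), hg, ent_one_self, one_smul]
      rfl
    · rw [if_neg fun e => hg (mul_inv_eq_one.1 e.symm), ent_one_ne hg, zero_smul, map_zero]

end Point

end Vale.Agent.P089GU
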